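import Vale.Agent.P280.H490.Rev

/-! P280, stage 2: the global fields in the direction of the curve. -/

open DirectSum Vale.Agent.P280.T Vale.Agent.P280.H127

namespace Vale.Agent.P280.H490

open Vale.Agent.P280.N

variable {r : ℕ} {R : Type} [CommRing R] [IsDomain R] [Algebra ℂ R]
  {𝒜 : ℕ × (Fin r → ℤ) → Submodule ℂ R} [GradedAlgebra 𝒜]

/-- A derivation along the curve, in the direction of the curve. -/
theorem der_dir (H : Hyp 𝒜) {y y' : FP 𝒜} {a : Fin r → ℤ} {n : ℕ}
    {φ : R →ₐ[ℂ] Polynomial ℂ} (hφ : Curve y y' a n φ) {δ : R →ₗ[ℂ] Polynomial ℂ}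
    (hδ : ∀ x z, δ (x * z) = φ x * δ z + φ z * δ x)
    (hdeg : ∀ d m, ∀ h ∈ 𝒜 (d, m), δ h ≠ 0 → ∃ i : ℕ, m = d • y.ν + i • a + a ∧
        ∃ c : ℂ, δ h = Polynomial.C c * Polynomial.X ^ i) :
    ∃ c : ℂ, ∀ x, δ x = Polynomial.C c * Polynomial.derivative (φ x) := by
  classical
  have ha := ne_zero_of_curve H hφ
  let δ' : R →ₗ[ℂ] Polynomial ℂ := Polynomial.derivative.comp φ.toLinearMap
  have hδ'a : ∀ x, δ' x = Polynomial.derivative (φ x) := fun x => rfl
  have hδ' : ∀ x z, δ' (x * z) = φ x * δ' z + φ z * δ' x := by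
    intro x z
    rw [hδ'a, hδ'a, hδ'a, map_mul, Polynomial.derivative_mul]
    ring
  have hdeg' : ∀ d m, ∀ h ∈ 𝒜 (d, m), δ' h ≠ 0 → ∃ i : ℕ, m = d • y.ν + i • a + a ∧
      ∃ c : ℂ, δ' h = Polynomial.C c * Polynomial.X ^ i := by
    intro d m h hh hne
    have h0 : φ h ≠ 0 := fun h0 => hne (by rw [hδ'a, h0, Polynomial.derivative_zero])
    obtain ⟨i, -, hm, c, hc⟩ := hφ.hom d m h hh h0
    rcases i with _ | i
    · exfalso
      apply hne
      rw [hδ'a, hc, pow_zero, mul_one, Polynomial.derivative_C]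
    · refine ⟨i, by rw [hm, succ_nsmul, add_assoc], c * ((i : ℂ) + 1), ?_⟩
      rw [hδ'a, hc, Polynomial.derivative_C_mul_X_pow]
      push_cast
      rfl
  have hk0 : ∀ (δ : R →ₗ[ℂ] Polynomial ℂ), ∀ h, ∀ i < 0, (δ h).coeff i = 0 :=
    fun _ _ _ hi => absurd hi (Nat.not_lt_zero _)
  have ht := along_tangent hφ.ev hδ (hk0 δ)
  have ht' := along_tangent hφ.ev hδ' (hk0 δ')
  have hw := along_weight (y := y) (a := a) (μ := a) hdeg 0
  have hw' := along_weight (y := y) (a := a) (μ := a) hdeg' 0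
  rw [Nat.cast_zero, zero_smul, add_zero] at hw hw'
  obtain ⟨d1, h1, -, hh1⟩ := hφ.un
  have hcoeff : ∀ x, (δ' x).coeff 0 = (φ x).coeff 1 := by
    intro x
    rw [hδ'a, Polynomial.coeff_derivative]
    simp
  obtain ⟨c, c', hcc, hlin⟩ := H.mult y.q y.ν a y.nv y.fix hφ.ya _ _ ht hw ht' hw'
  have hc : c ≠ 0 := by
    intro hc
    subst hc
    rcases hcc with h | h
    · exact h rfl
    · have h3 := hlin h1
      rw [zero_mul, zero_add, LinearMap.comp_apply, Polynomial.lcoeff_apply, hcoeff] at h3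
      exact hh1 ((mul_eq_zero.1 h3).resolve_left h)
  obtain ⟨b, hb⟩ : ∃ b : ℂ, b = -(c' / c) := ⟨_, rfl⟩
  have hlin' : ∀ x, (δ x).coeff 0 = b * (δ' x).coeff 0 := by
    intro x
    have h3 := hlin x
    simp only [LinearMap.comp_apply, Polynomial.lcoeff_apply] at h3
    rw [hb]
    field_simp
    linear_combination h3
  refine ⟨b, ?_⟩
  let ε : R →ₗ[ℂ] Polynomial ℂ := δ - b • δ'
  have hε : ∀ x, ε x = δ x - Polynomial.C b * δ' x := fun x => by
    rw [← Polynomial.smul_eq_C_mul]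
    rfl
  have hεδ : ∀ x z, ε (x * z) = φ x * ε z + φ z * ε x := by
    intro x z
    rw [hε, hε, hε, hδ, hδ']
    ring
  have hεdeg : ∀ d m, ∀ h ∈ 𝒜 (d, m), ε h ≠ 0 → ∃ i : ℕ, m = d • y.ν + i • a + a ∧
      ∃ c : ℂ, ε h = Polynomial.C c * Polynomial.X ^ i := by
    intro d m h hh hne
    by_cases h1 : δ h = 0
    · by_cases h2 : δ' h = 0
      · exfalso
        apply hne
        rw [hε, h1, h2, mul_zero, sub_zero]
      · obtain ⟨i, hi, e, he⟩ := hdeg' d m h hh h2
        refine ⟨i, hi, -(b * e), ?_⟩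
        rw [hε, h1, he, Polynomial.C_neg, Polynomial.C_mul]
        ring
    · obtain ⟨i, hi, e, he⟩ := hdeg d m h hh h1
      by_cases h2 : δ' h = 0
      · refine ⟨i, hi, e, ?_⟩
        rw [hε, h2, mul_zero, sub_zero, he]
      · obtain ⟨i', hi', e', he'⟩ := hdeg' d m h hh h2
        have hii : i = i' := by
          rw [hi] at hi'
          exact nsmul_inj ha (add_left_cancel (add_right_cancel hi'))
        refine ⟨i, hi, e - b * e', ?_⟩
        rw [hε, he, he', hii, Polynomial.C_sub, Polynomial.C_mul]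
        ring
  have hzero : ∀ x, ε x = 0 := by
    by_contra hcon
    push Not at hcon
    have hex : ∃ k, ∃ h, (ε h).coeff k ≠ 0 := by
      obtain ⟨h, hh⟩ := hcon
      by_contra hcon
      push Not at hcon
      exact hh (Polynomial.ext fun k => by rw [hcon k h, Polynomial.coeff_zero])
    have hk := Nat.find_spec hex
    have hmin : ∀ h, ∀ i < Nat.find hex, (ε h).coeff i = 0 := by
      intro h i hi
      have := Nat.find_min hex hi
      push Not at this
      exact this h
    generalize Nat.find hex = k at hk hmin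
    obtain ⟨h2, hh2⟩ := hk
    have hk1 : k ≠ 0 := by
      rintro rfl
      apply hh2
      rw [hε, Polynomial.coeff_sub, Polynomial.coeff_C_mul, hlin', sub_self]
    have hne0 : a + (k : ℤ) • a ≠ 0 := by
      intro h0
      have h3 : ((k : ℤ) + 1) • a = 0 := by
        rw [add_smul, one_smul, add_comm]
        exact h0
      rcases smul_eq_zero.1 h3 with h4 | h4
      · omega
      · exact ha h4
    have hpi : y.Pi (a + (k : ℤ) • a) := tangentWeight_of_ne y.fix hne0
      (along_tangent hφ.ev hεδ hmin) (along_weight hεdeg k) (by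
        intro h0
        exact hh2 (LinearMap.congr_fun h0 h2))
    have h5 := H.ind y.q y.ν a (a + (k : ℤ) • a) y.nv y.fix hφ.ya hpi
      ⟨(k : ℤ) + 1, 1, by omega, one_ne_zero, by
        rw [add_smul, one_smul, one_smul, add_comm]⟩
    have h6 : (k : ℤ) • a = 0 := left_eq_add.1 h5
    rcases smul_eq_zero.1 h6 with h4 | h4
    · exact hk1 (by exact_mod_cast h4)
    · exact ha h4
  intro x
  have := hzero x
  rw [hε] at this
  exact sub_eq_zero.1 this

/-- A global field of weight `a` along the curve. -/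
theorem along_E (H : Hyp 𝒜) {y y' : FP 𝒜} {a : Fin r → ℤ} {n : ℕ}
    {φ : R →ₐ[ℂ] Polynomial ℂ} (hφ : Curve y y' a n φ) {E : Derivation ℂ R R}
    (hE : H93.IsHField 𝒜 a E) :
    ∃ c : ℂ, ∀ x, φ (E x) = Polynomial.C c * Polynomial.derivative (φ x) := by
  obtain ⟨c, hc⟩ := der_dir H hφ (δ := φ.toLinearMap.comp (E : R →ₗ[ℂ] R)) (by
      intro x z
      simp only [LinearMap.comp_apply, AlgHom.toLinearMap_apply, Derivation.coeFn_coe,
        Derivation.leibniz, smul_eq_mul, map_add, map_mul])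
    (by
      intro d m h hh hne
      simp only [LinearMap.comp_apply, AlgHom.toLinearMap_apply, Derivation.coeFn_coe] at hne ⊢
      obtain ⟨i, -, hm, hc⟩ := hφ.hom d (m - a) (E h) (hE d m h hh) hne
      exact ⟨i, by rw [← hm]; abel, hc⟩)
  exact ⟨c, fun x => hc x⟩

/-- A global field of weight `-a` along the curve. -/
theorem along_F (H : Hyp 𝒜) {y y' : FP 𝒜} {a : Fin r → ℤ} {n : ℕ}
    {φ : R →ₐ[ℂ] Polynomial ℂ} (hφ : Curve y y' a n φ) {F : Derivation ℂ R R}
    (hF : H93.IsHField 𝒜 (-a) F) :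
    ∃ c : ℂ, ∀ d m, ∀ h ∈ 𝒜 (d, m), φ (F h) = Polynomial.C c *
      (Polynomial.X ^ 2 * Polynomial.derivative (φ h) -
        Polynomial.C ((n : ℂ) * d) * Polynomial.X * φ h) := by
  obtain ⟨φ', hφ', hrel⟩ := exists_rev H hφ
  obtain ⟨c, hc⟩ := along_E H hφ' hF
  refine ⟨-c, ?_⟩
  intro d m h hh
  obtain ⟨i, hi, -, e, he⟩ := form hφ hh
  have h1 := hrel d m h hh i hi e he
  have hFh : F h ∈ 𝒜 (d, m + a) := by
    have := hF d m h hh
    rwa [sub_neg_eq_add] at this
  obtain ⟨j, hj, -, e', he'⟩ := form hφ hFh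
  have h2 := hrel d _ _ hFh j hj e' he'
  have h3 := hc h
  rw [h1, h2, Polynomial.derivative_C_mul_X_pow, ← mul_assoc, ← Polynomial.C_mul] at h3
  rw [he', he, Polynomial.derivative_C_mul_X_pow]
  -- compare coefficients
  have h4 := congrArg (fun p => Polynomial.coeff p (d * n - j)) h3
  simp only [Polynomial.coeff_C_mul_X_pow, if_true] at h4
  rcases Nat.lt_or_ge i (d * n) with hlt | hge
  · by_cases hji : j = i + 1
    · subst hji
      rw [if_pos (by omega)] at h4
      rw [h4, Nat.cast_sub hlt.le]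
      rcases i with _ | i
      · simp only [Nat.cast_zero, mul_zero, Polynomial.C_0, zero_mul, pow_zero, mul_one]
        push_cast
        simp only [Polynomial.C_mul, Polynomial.C_neg, Polynomial.C_sub, Polynomial.C_0]
        ring
      · have h5 : i + 1 - 1 = i := rfl
        rw [h5]
        push_cast
        simp only [Polynomial.C_mul, Polynomial.C_neg, Polynomial.C_sub, Polynomial.C_add,
          Polynomial.C_1]
        ring
    · rw [if_neg (by omega)] at h4
      rw [h4, Polynomial.C_0, zero_mul]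
      -- the other side has coefficient zero
      have h5 := congrArg (fun p => Polynomial.coeff p (d * n - i - 1)) h3
      simp only [Polynomial.coeff_C_mul_X_pow, if_true] at h5
      rw [if_neg (by omega)] at h5
      rw [Nat.cast_sub hlt.le] at h5
      have h6 : c * (e * ((d * n : ℕ) - (i : ℂ))) = 0 := h5.symm
      rcases i with _ | i
      · simp only [Nat.cast_zero, mul_zero, Polynomial.C_0, zero_mul, pow_zero, mul_one]
        have h7 : c * (e * ((d : ℂ) * n)) = 0 := by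
          simpa using h6
        have h8 : Polynomial.C (-c) * (0 - Polynomial.C ((n : ℂ) * d) * Polynomial.X *
            Polynomial.C e) = Polynomial.C (c * (e * ((d : ℂ) * n))) * Polynomial.X := by
          simp only [Polynomial.C_mul, Polynomial.C_neg]
          ring
        rw [h8, h7, Polynomial.C_0, zero_mul]
      · have h5' : i + 1 - 1 = i := rfl
        rw [h5']
        have h8 : Polynomial.C (-c) * (Polynomial.X ^ 2 * (Polynomial.C (e * ((i + 1 : ℕ) : ℂ)) *
            Polynomial.X ^ i) - Polynomial.C ((n : ℂ) * d) * Polynomial.X *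
            (Polynomial.C e * Polynomial.X ^ (i + 1))) =
            Polynomial.C (c * (e * ((d * n : ℕ) - ((i + 1 : ℕ) : ℂ)))) *
              Polynomial.X ^ (i + 2) := by
          push_cast
          simp only [Polynomial.C_mul, Polynomial.C_neg, Polynomial.C_sub, Polynomial.C_add,
            Polynomial.C_1]
          ring
        rw [h8, h6, Polynomial.C_0, zero_mul]
  · have h5 : i = d * n := le_antisymm hi hge
    have h6 : e' = 0 := by
      rw [h4, h5, Nat.sub_self, Nat.cast_zero, mul_zero, mul_zero]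
      exact ite_self _
    rw [h6, Polynomial.C_0, zero_mul, h5]
    rcases Nat.eq_zero_or_pos (d * n) with h7 | h7
    · have h8 : (n : ℂ) * d = 0 := by
        rw [mul_comm]
        exact_mod_cast h7
      rw [h7, h8]
      simp
    · obtain ⟨k, hk⟩ := Nat.exists_eq_succ_of_ne_zero h7.ne'
      have h8 : (n : ℂ) * d = (k : ℂ) + 1 := by
        rw [mul_comm]
        exact_mod_cast hk
      rw [hk, h8]
      have h9 : k.succ - 1 = k := rfl
      rw [h9, Nat.succ_eq_add_one]
      push_cast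
      simp only [Polynomial.C_mul, Polynomial.C_add, Polynomial.C_1]
      ring

/-- If `D` vanishes along the curve, so does `[w, D]`, `w` in the direction of the curve. -/
theorem ne_of_bracket (H : Hyp 𝒜) {y y' : FP 𝒜} {a : Fin r → ℤ} {n : ℕ}
    {φ : R →ₐ[ℂ] Polynomial ℂ} (hφ : Curve y y' a n φ) {lam : Fin r → ℤ} {w D : VF R}
    (hw : Glob w) (hwv : HV 𝒜 a w ∨ HV 𝒜 (-a) w) (hD : Glob D) (hDv : HV 𝒜 lam D)
    (hne : ¬ ValV y.q ⁅w, D⁆ 0 ∨ ¬ ValV y'.q ⁅w, D⁆ 0) :
    ∃ h g : R, D (iK h) = iK g ∧ φ g ≠ 0 := by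
  obtain ⟨E, rfl, hE⟩ := hD.exists_hder hDv
  by_contra hcon
  push Not at hcon
  have h0 : ∀ x, φ (E x) = 0 := fun x => hcon x (E x) (toVF_iK E x)
  -- `φ (W x) = 0` if `φ x = 0`, `x` homogeneous
  obtain ⟨W, rfl, hW⟩ : ∃ W : Derivation ℂ R R, toVF W = w ∧
      ∀ d m, ∀ x ∈ 𝒜 (d, m), φ x = 0 → φ (W x) = 0 := by
    rcases hwv with hwv | hwv
    · obtain ⟨W, hW, hW'⟩ := hw.exists_hder hwv
      obtain ⟨c, hc⟩ := along_E H hφ hW'
      refine ⟨W, hW, fun d m x _ hx => ?_⟩
      rw [hc, hx, Polynomial.derivative_zero, mul_zero]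
    · obtain ⟨W, hW, hW'⟩ := hw.exists_hder hwv
      obtain ⟨c, hc⟩ := along_F H hφ hW'
      refine ⟨W, hW, fun d m x hx hx0 => ?_⟩
      rw [hc d m x hx, hx0, Polynomial.derivative_zero]
      ring
  have hbr : ∀ x, φ (⁅W, E⁆ x) = 0 := by
    have h1 : φ.toLinearMap.comp ((⁅W, E⁆ : Derivation ℂ R R) : R →ₗ[ℂ] R) = 0 := by
      apply linearMap_ext_graded 𝒜
      rintro ⟨d, m⟩ h hh
      change φ (⁅W, E⁆ h) = 0
      rw [Derivation.commutator_apply, map_sub, h0, sub_zero]
      exact hW d _ _ (hE d m h hh) (h0 h)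
    exact fun x => LinearMap.congr_fun h1 x
  have hv : ∀ z : FP 𝒜, (∀ x, z.q (⁅W, E⁆ x) = 0) → ValV z.q ⁅toVF W, toVF E⁆ 0 := by
    intro z hz h
    rw [← toVF_lie, toVF_iK]
    have := Val.iK (q := z.q) (⁅W, E⁆ h)
    rwa [hz] at this
  rcases hne with hne | hne
  · apply hne
    refine hv y fun x => ?_
    rw [← hφ.ev, hbr, Polynomial.eval_zero]
  · apply hne
    refine hv y' fun x => ?_
    obtain ⟨φ', hφ', hrel⟩ := exists_rev H hφ
    have h1 : φ'.toLinearMap.comp ((⁅W, E⁆ : Derivation ℂ R R) : R →ₗ[ℂ] R) = 0 := by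
      apply linearMap_ext_graded 𝒜
      rintro ⟨d, m⟩ h hh
      change φ' (⁅W, E⁆ h) = 0
      rw [Derivation.commutator_apply, map_sub]
      have h2 : ∀ d m, ∀ g ∈ 𝒜 (d, m), φ g = 0 → φ' g = 0 := by
        intro d m g hg hg0
        rw [hrel d m g hg 0 (Nat.zero_le _) 0 (by rw [hg0, Polynomial.C_0, zero_mul]),
          Polynomial.C_0, zero_mul]
      have h3 : ∀ x, φ' (E x) = 0 := by
        have h4 : φ'.toLinearMap.comp (E : R →ₗ[ℂ] R) = 0 := by
          apply linearMap_ext_graded 𝒜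
          rintro ⟨d, m⟩ h hh
          exact h2 d _ _ (hE d m h hh) (h0 h)
        exact fun x => LinearMap.congr_fun h4 x
      rw [h3, sub_zero]
      rcases hwv with hwv | hwv
      · obtain ⟨W', hW1, hW'⟩ := hw.exists_hder hwv
        obtain rfl : W' = W := toVF_inj hW1
        exact h2 d _ _ (hW' d _ _ (hE d m h hh)) (hW d _ _ (hE d m h hh) (h0 h))
      · obtain ⟨W', hW1, hW'⟩ := hw.exists_hder hwv
        obtain rfl : W' = W := toVF_inj hW1
        exact h2 d _ _ (hW' d _ _ (hE d m h hh)) (hW d _ _ (hE d m h hh) (h0 h))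
    rw [← hφ'.ev]
    have h5 : φ' (⁅W, E⁆ x) = 0 := LinearMap.congr_fun h1 x
    rw [h5, Polynomial.eval_zero]

end Vale.Agent.P280.H490
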