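import Vale.Agent.P280.H490.Lift

/-! P280, stage 2: transport along the curve, lemma (U). -/

open DirectSum Vale.Agent.P280.T Vale.Agent.P280.H127

namespace Vale.Agent.P280.H490

open Vale.Agent.P280.N

variable {r : ℕ} {R : Type} [CommRing R] [IsDomain R] [Algebra ℂ R]
  {𝒜 : ℕ × (Fin r → ℤ) → Submodule ℂ R} [GradedAlgebra 𝒜]

theorem nsmul_inj {a : Fin r → ℤ} (ha : a ≠ 0) {k l : ℕ} (h : k • a = l • a) : k = l := by
  have h1 : ((k : ℤ) - l) • a = 0 := by
    rw [sub_smul, natCast_zsmul, natCast_zsmul, h, sub_self]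
  have h2 := (smul_eq_zero.1 h1).resolve_right ha
  omega

/-- The direction of a curve is not zero. -/
theorem ne_zero_of_curve (H : Hyp 𝒜) {y y' : FP 𝒜} {a : Fin r → ℤ} {n : ℕ}
    {φ : R →ₐ[ℂ] Polynomial ℂ} (hφ : Curve y y' a n φ) : a ≠ 0 := by
  intro ha
  exact H.iso y.q y.ν y.nv y.fix (by rw [← ha]; exact hφ.ya)

/-- The part of weight `μ` of a derivation along the curve. -/
theorem exists_part {y y' : FP 𝒜} {a : Fin r → ℤ} {n : ℕ} {φ : R →ₐ[ℂ] Polynomial ℂ}
    (hφ : Curve y y' a n φ) (ha : a ≠ 0) (μ : Fin r → ℤ) {δ : R →ₗ[ℂ] Polynomial ℂ}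
    (hδ : ∀ x z, δ (x * z) = φ x * δ z + φ z * δ x) :
    ∃ ε : R →ₗ[ℂ] Polynomial ℂ, (∀ x z, ε (x * z) = φ x * ε z + φ z * ε x) ∧
      (∀ d m, ∀ h ∈ 𝒜 (d, m), ∀ k : ℕ, m = d • y.ν + k • a + μ →
        ε h = Polynomial.C ((δ h).coeff k) * Polynomial.X ^ k) ∧
      ∀ d m, (∀ k : ℕ, m ≠ d • y.ν + k • a + μ) → ∀ h ∈ 𝒜 (d, m), ε h = 0 := by
  classical
  let P : ℕ × (Fin r → ℤ) → Prop := fun i => ∃ k : ℕ, i.2 = i.1 • y.ν + k • a + μ
  let pr : ℕ × (Fin r → ℤ) → Polynomial ℂ →ₗ[ℂ] Polynomial ℂ := fun i =>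
    if h : P i then (Polynomial.monomial h.choose).comp (Polynomial.lcoeff ℂ h.choose) else 0
  have hpr : ∀ (d : ℕ) (m : Fin r → ℤ) (k : ℕ), m = d • y.ν + k • a + μ →
      ∀ p : Polynomial ℂ, pr (d, m) p = Polynomial.C (p.coeff k) * Polynomial.X ^ k := by
    intro d m k hm p
    have hP : P (d, m) := ⟨k, hm⟩
    have hk : hP.choose = k := by
      have h1 := hP.choose_spec
      change m = d • y.ν + hP.choose • a + μ at h1
      exact (nsmul_inj ha (add_left_cancel (add_right_cancel (hm.symm.trans h1)))).symm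
    change (if h : P (d, m) then
      (Polynomial.monomial h.choose).comp (Polynomial.lcoeff ℂ h.choose) else 0) p = _
    rw [dif_pos hP, hk, LinearMap.comp_apply, Polynomial.lcoeff_apply,
      Polynomial.C_mul_X_pow_eq_monomial]
  have hpr0 : ∀ (d : ℕ) (m : Fin r → ℤ), (∀ k : ℕ, m ≠ d • y.ν + k • a + μ) →
      ∀ p : Polynomial ℂ, pr (d, m) p = 0 := by
    intro d m hm p
    have hP : ¬ P (d, m) := fun ⟨k, hk⟩ => hm k hk
    change (if h : P (d, m) then
      (Polynomial.monomial h.choose).comp (Polynomial.lcoeff ℂ h.choose) else 0) p = _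
    rw [dif_neg hP, LinearMap.zero_apply]
  have key : ∀ (d d' : ℕ) (m m' : Fin r → ℤ), ∀ x ∈ 𝒜 (d, m), ∀ p : Polynomial ℂ,
      pr (d + d', m + m') (φ x * p) = φ x * pr (d', m') p := by
    intro d d' m m' x hx p
    by_cases h0 : φ x = 0
    · rw [h0, zero_mul, zero_mul, map_zero]
    obtain ⟨i, -, hi, c, hc⟩ := hφ.hom d m x hx h0
    by_cases hex : ∃ k : ℕ, m' = d' • y.ν + k • a + μ
    · obtain ⟨k, hk⟩ := hex
      rw [hpr d' m' k hk, hpr (d + d') (m + m') (i + k) (by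
        rw [hi, hk, add_smul, add_smul]
        abel), hc]
      have h1 : (Polynomial.C c * Polynomial.X ^ i * p).coeff (i + k) = c * p.coeff k := by
        rw [mul_assoc, Polynomial.coeff_C_mul, add_comm i k, Polynomial.coeff_X_pow_mul]
      rw [h1, Polynomial.C_mul, pow_add]
      ring
    · push Not at hex
      rw [hpr0 d' m' hex, mul_zero]
      by_cases hex' : ∃ k : ℕ, m + m' = (d + d') • y.ν + k • a + μ
      · obtain ⟨k, hk⟩ := hex'
        rw [hpr _ _ k hk, hc, mul_assoc, Polynomial.coeff_C_mul, Polynomial.coeff_X_pow_mul']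
        rw [if_neg, mul_zero, Polynomial.C_0, zero_mul]
        intro hik
        apply hex (k - i)
        have h1 : (k - i) • a + i • a = k • a := by
          rw [← add_smul, Nat.sub_add_cancel hik]
        have h2 : m' = (d + d') • y.ν + k • a + μ - m := by
          rw [← hk]
          abel
        rw [h2, hi, ← h1, add_smul]
        abel
      · push Not at hex'
        exact hpr0 _ _ hex' _
  refine ⟨H644.tw 𝒜 fun i => (pr i).comp δ, ?_, ?_, ?_⟩
  · have hder : H644.IsDer φ (H644.tw 𝒜 fun i => (pr i).comp δ) := by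
      refine H644.isDer_of_hom (𝒜 := 𝒜) ?_
      rintro ⟨d, m⟩ ⟨d', m'⟩ x hx g hg
      rw [H644.tw_mem 𝒜 _ (SetLike.mul_mem_graded hx hg), H644.tw_mem 𝒜 _ hx,
        H644.tw_mem 𝒜 _ hg]
      change pr (d + d', m + m') (δ (x * g)) = φ x * pr (d', m') (δ g) + φ g * pr (d, m) (δ x)
      rw [hδ, map_add, key d d' m m' x hx]
      congr 1
      rw [add_comm d d', add_comm m m']
      exact key d' d m' m g hg (δ x)
    exact hder
  · intro d m h hh k hk
    rw [H644.tw_mem 𝒜 _ hh]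
    exact hpr d m k hk (δ h)
  · intro d m hm h hh
    rw [H644.tw_mem 𝒜 _ hh]
    exact hpr0 d m hm (δ h)

/-- Nefness along the curve: a tangent vector at `y'` of weight `lam` extends along the curve. -/
theorem exists_lift (H : Hyp 𝒜) {y y' : FP 𝒜} {a : Fin r → ℤ} {n : ℕ}
    {φ : R →ₐ[ℂ] Polynomial ℂ} (hφ : Curve y y' a n φ) {lam : Fin r → ℤ} {t : R →ₗ[ℂ] ℂ}
    (ht : IsTangent y'.q t) (htw : HasWeight 𝒜 y'.ν lam t) :
    ∃ δ : R →ₗ[ℂ] Polynomial ℂ, (∀ x z, δ (x * z) = φ x * δ z + φ z * δ x) ∧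
      (∀ d m, ∀ h ∈ 𝒜 (d, m), δ h ≠ 0 → ∃ i : ℕ, i ≤ d * n ∧ m = d • y.ν + i • a + lam ∧
        ∃ c : ℂ, δ h = Polynomial.C c * Polynomial.X ^ i) ∧
      ∀ d m, ∀ h ∈ 𝒜 (d, m), (δ h).coeff (d * n) = t h := by
  have ha := ne_zero_of_curve H hφ
  obtain ⟨δ, hδ, hδ1, hδ2⟩ := exists_der H hφ ht
  obtain ⟨ε, hε, hε1, hε0⟩ := exists_part hφ ha lam hδ
  refine ⟨ε, hε, ?_, ?_⟩
  · intro d m h hh hne
    by_cases hex : ∃ k : ℕ, m = d • y.ν + k • a + lam
    · obtain ⟨k, hk⟩ := hex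
      have h1 := hε1 d m h hh k hk
      refine ⟨k, ?_, hk, _, h1⟩
      by_contra hlt
      apply hne
      rw [h1, hδ1 d m h hh k (not_le.1 hlt), Polynomial.C_0, zero_mul]
    · push Not at hex
      exact absurd (hε0 d m hex h hh) hne
  · intro d m h hh
    by_cases hm : m = d • y.ν + (d * n) • a + lam
    · rw [hε1 d m h hh (d * n) hm, Polynomial.coeff_C_mul_X_pow, if_pos rfl, hδ2 d m h hh]
    · have h0 : t h = 0 := by
        by_contra hne
        apply hm
        rw [htw d m h hh hne, hφ.nu, smul_add, mul_smul]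
      rw [h0]
      by_cases hex : ∃ k : ℕ, m = d • y.ν + k • a + lam
      · obtain ⟨k, hk⟩ := hex
        rw [hε1 d m h hh k hk, Polynomial.coeff_C_mul_X_pow, if_neg]
        rintro rfl
        exact hm hk
      · push Not at hex
        rw [hε0 d m hex h hh, Polynomial.coeff_zero]

/-- Two derivations along the curve of the same weight, of which the possible order of vanishing
is unique, are proportional. -/
theorem der_unique (H : Hyp 𝒜) {y y' : FP 𝒜} {a : Fin r → ℤ} {n : ℕ}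
    {φ : R →ₐ[ℂ] Polynomial ℂ} (hφ : Curve y y' a n φ) {lam : Fin r → ℤ}
    (hl : ∀ k : ℤ, lam ≠ k • a) {k0 : ℕ} (hk : ∀ k : ℕ, y.Pi (lam + k • a) → k = k0)
    {δ δ' : R →ₗ[ℂ] Polynomial ℂ} (hδ : ∀ x z, δ (x * z) = φ x * δ z + φ z * δ x)
    (hδ' : ∀ x z, δ' (x * z) = φ x * δ' z + φ z * δ' x)
    (hdeg : ∀ d m, ∀ h ∈ 𝒜 (d, m), δ h ≠ 0 → ∃ i : ℕ, m = d • y.ν + i • a + lam ∧
        ∃ c : ℂ, δ h = Polynomial.C c * Polynomial.X ^ i)
    (hdeg' : ∀ d m, ∀ h ∈ 𝒜 (d, m), δ' h ≠ 0 → ∃ i : ℕ, m = d • y.ν + i • a + lam ∧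
        ∃ c : ℂ, δ' h = Polynomial.C c * Polynomial.X ^ i)
    (hne' : ∃ h, δ' h ≠ 0) : ∃ c : ℂ, ∀ h, δ h = Polynomial.C c * δ' h := by
  have ha := ne_zero_of_curve H hφ
  obtain ⟨k, -, hmin', ⟨h1, hh1⟩, hpi⟩ := along_pi (a := a) (μ := lam) (j := 0) hφ.ev hδ' hdeg' hl
    hne' (fun h i hi => absurd hi (Nat.not_lt_zero i))
  have hkk : k = k0 := hk k (by rwa [natCast_zsmul] at hpi)
  subst hkk
  -- `δ` vanishes to order `k`
  have hmin : ∀ h, ∀ i < k, (δ h).coeff i = 0 := by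
    by_cases h0 : ∃ h, δ h ≠ 0
    · obtain ⟨l, -, hmin, -, hpi'⟩ := along_pi (a := a) (μ := lam) (j := 0) hφ.ev hδ hdeg hl
        h0 (fun h i hi => absurd hi (Nat.not_lt_zero i))
      have hlk : l = k := hk l (by rwa [natCast_zsmul] at hpi')
      rwa [hlk] at hmin
    · push Not at h0
      intro h i _
      rw [h0 h, Polynomial.coeff_zero]
  have ht := along_tangent hφ.ev hδ hmin
  have ht' := along_tangent hφ.ev hδ' hmin'
  have hw := along_weight (y := y) (a := a) (μ := lam) hdeg k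
  have hw' := along_weight (y := y) (a := a) (μ := lam) hdeg' k
  obtain ⟨c, c', hcc, hlin⟩ := H.mult y.q y.ν (lam + (k : ℤ) • a) y.nv y.fix hpi _ _ ht hw ht' hw'
  have hc : c ≠ 0 := by
    intro hc
    subst hc
    rcases hcc with h | h
    · exact h rfl
    · have h3 := hlin h1
      rw [zero_mul, zero_add, LinearMap.comp_apply, Polynomial.lcoeff_apply] at h3
      exact hh1 ((mul_eq_zero.1 h3).resolve_left h)
  obtain ⟨b, hb⟩ : ∃ b : ℂ, b = -(c' / c) := ⟨_, rfl⟩
  have hlin' : ∀ x, (δ x).coeff k = b * (δ' x).coeff k := by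
    intro x
    have h3 := hlin x
    simp only [LinearMap.comp_apply, Polynomial.lcoeff_apply] at h3
    rw [hb]
    field_simp
    linear_combination h3
  refine ⟨b, ?_⟩
  let ε : R →ₗ[ℂ] Polynomial ℂ := δ - b • δ'
  have hε : ∀ x, ε x = δ x - Polynomial.C b * δ' x := fun x => by
    rw [← Polynomial.smul_eq_C_mul]
    rfl
  have hzero : ∀ x, ε x = 0 := by
    by_contra hcon
    push Not at hcon
    obtain ⟨l, hl1, -, -, hpi'⟩ := along_pi (y := y) (a := a) (μ := lam) (φ := φ) (j := k + 1)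
      (δ := ε) hφ.ev
      (by
        intro x z
        rw [hε, hε, hε, hδ, hδ']
        ring)
      (by
        intro d m h hh hne
        by_cases h1 : δ h = 0
        · by_cases h2 : δ' h = 0
          · exfalso
            apply hne
            rw [hε, h1, h2, mul_zero, sub_zero]
          · obtain ⟨i, hi, e, he⟩ := hdeg' d m h hh h2
            refine ⟨i, hi, -(b * e), ?_⟩
            rw [hε, h1, he, Polynomial.C_neg, Polynomial.C_mul]
            ring
        · obtain ⟨i, hi, e, he⟩ := hdeg d m h hh h1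
          by_cases h2 : δ' h = 0
          · refine ⟨i, hi, e, ?_⟩
            rw [hε, h2, mul_zero, sub_zero, he]
          · obtain ⟨i', hi', e', he'⟩ := hdeg' d m h hh h2
            have hii : i = i' := by
              rw [hi] at hi'
              exact nsmul_inj ha (add_left_cancel (add_right_cancel hi'))
            refine ⟨i, hi, e - b * e', ?_⟩
            rw [hε, he, he', hii, Polynomial.C_sub, Polynomial.C_mul]
            ring)
      hl hcon
      (by
        intro h i hi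
        rw [hε, Polynomial.coeff_sub, Polynomial.coeff_C_mul]
        rcases Nat.lt_succ_iff_lt_or_eq.1 hi with h1 | h1
        · rw [hmin h i h1, hmin' h i h1, mul_zero, sub_zero]
        · rw [h1, hlin' h, sub_self])
    have := hk l (by rwa [natCast_zsmul] at hpi')
    omega
  intro h
  have := hzero h
  rw [hε] at this
  exact sub_eq_zero.1 this

/-- **Lemma (U).** A global field of weight `lam`, not zero along the curve from `y` to `y'`, is
not zero at `y'` if `lam` is a weight at `y'` and there is only one possible order at `y`. -/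
theorem curve_u (H : Hyp 𝒜) {y y' : FP 𝒜} {a : Fin r → ℤ} {n : ℕ}
    {φ : R →ₐ[ℂ] Polynomial ℂ} (hφ : Curve y y' a n φ) {lam : Fin r → ℤ} {D : VF R}
    (hD : Glob D) (hDv : HV 𝒜 lam D) (hl : ∀ k : ℤ, lam ≠ k • a) (hpi : y'.Pi lam) {k0 : ℕ}
    (hk : ∀ k : ℕ, y.Pi (lam + k • a) → k = k0)
    (hne : ∃ h g : R, D (iK h) = iK g ∧ φ g ≠ 0) : ¬ ValV y'.q D 0 := by
  obtain ⟨E, rfl, hE⟩ := hD.exists_hder hDv
  have inj : Function.Injective (algebraMap R (FractionRing R)) := IsFractionRing.injective R _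
  obtain ⟨h0, g, hg, hg0⟩ := hne
  have hEg : E h0 = g := by
    rw [toVF_iK] at hg
    exact inj hg
  subst hEg
  have hval : ValV y'.q (toVF E) (y'.q.toLinearMap.comp (E : R →ₗ[ℂ] R)) := by
    intro h
    rw [toVF_iK]
    exact Val.iK (E h)
  intro hv0
  have hz : ∀ h, y'.q (E h) = 0 := fun h => LinearMap.congr_fun (hval.unique hv0) h
  obtain ⟨t, ht, htw, htne⟩ := hpi
  obtain ⟨δ, hδ, hdeg, htop⟩ := exists_lift H hφ ht htw
  obtain ⟨c, hc⟩ := der_unique H hφ hl hk (δ := δ)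
    (δ' := φ.toLinearMap.comp (E : R →ₗ[ℂ] R)) hδ (by
      intro x z
      simp only [LinearMap.comp_apply, AlgHom.toLinearMap_apply, Derivation.coeFn_coe,
        Derivation.leibniz, smul_eq_mul, map_add, map_mul])
    (by
      intro d m h hh hne
      obtain ⟨i, -, hi, hc⟩ := hdeg d m h hh hne
      exact ⟨i, hi, hc⟩)
    (by
      intro d m h hh hne
      simp only [LinearMap.comp_apply, AlgHom.toLinearMap_apply, Derivation.coeFn_coe] at hne ⊢
      obtain ⟨i, -, hm, hc⟩ := hφ.hom d (m - lam) (E h) (hE d m h hh) hne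
      exact ⟨i, by rw [← hm]; abel, hc⟩)
    ⟨h0, hg0⟩
  obtain ⟨d, m, h, hh, hne⟩ := htne 0
  apply hne
  rw [← htop d m h hh, hc h, Polynomial.coeff_C_mul]
  simp only [LinearMap.comp_apply, AlgHom.toLinearMap_apply, Derivation.coeFn_coe]
  rw [hφ.ev' d _ _ (hE d m h hh), hz, mul_zero, zero_mul, zero_mul]

end Vale.Agent.P280.H490
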