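import Vale.Agent.P280.N.B03

/-! P280, stage 2: the curve as a morphism from the projective line; nefness along it. -/

open DirectSum Vale.Agent.P280.T Vale.Agent.P280.H127

namespace Vale.Agent.P280.H490

open Vale.Agent.P280.N

/-- Homogenisation in degree `N`. -/
noncomputable def hg (N : ℕ) : Polynomial ℂ →ₗ[ℂ] MvPolynomial (Fin 2) ℂ :=
  ∑ k ∈ Finset.range (N + 1),
    (MvPolynomial.monomial (H644.ex (N - k) k)).comp (Polynomial.lcoeff ℂ k)

theorem hg_mono {N i : ℕ} (hi : i ≤ N) (c : ℂ) :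
    hg N (Polynomial.C c * Polynomial.X ^ i) = MvPolynomial.monomial (H644.ex (N - i) i) c := by
  rw [hg, LinearMap.sum_apply, Finset.sum_eq_single i]
  · rw [LinearMap.comp_apply, Polynomial.lcoeff_apply, Polynomial.coeff_C_mul_X_pow, if_pos rfl]
  · intro k _ hk
    rw [LinearMap.comp_apply, Polynomial.lcoeff_apply, Polynomial.coeff_C_mul_X_pow, if_neg hk,
      map_zero]
  · intro h
    exact absurd (Finset.mem_range.2 (by omega)) h

theorem aeval_ex (c : ℂ) (i j : ℕ) :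
    MvPolynomial.aeval ![(1 : Polynomial ℂ), Polynomial.X]
      (MvPolynomial.monomial (H644.ex i j) c) = Polynomial.C c * Polynomial.X ^ j := by
  rw [MvPolynomial.aeval_monomial]
  simp [Finsupp.prod_fintype, Fin.prod_univ_two]

theorem aeval_ex' (c : ℂ) (i j : ℕ) :
    MvPolynomial.aeval ![Polynomial.X, (1 : Polynomial ℂ)]
      (MvPolynomial.monomial (H644.ex i j) c) = Polynomial.C c * Polynomial.X ^ i := by
  rw [MvPolynomial.aeval_monomial]
  simp [Finsupp.prod_fintype, Fin.prod_univ_two]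

theorem aeval_ex2 (s : Fin 2 → ℂ) (c : ℂ) (i j : ℕ) :
    MvPolynomial.aeval s (MvPolynomial.monomial (H644.ex i j) c) = c * (s 0 ^ i * s 1 ^ j) := by
  rw [MvPolynomial.aeval_monomial]
  simp [Finsupp.prod_fintype, Fin.prod_univ_two]

/-- The degree and the top coefficient. -/
theorem aeval_deg {N : ℕ} {p : MvPolynomial (Fin 2) ℂ} (hp : p.IsHomogeneous N) :
    (∀ k, N < k →
      (MvPolynomial.aeval ![(1 : Polynomial ℂ), Polynomial.X] p).coeff k = 0) ∧
    (MvPolynomial.aeval ![(1 : Polynomial ℂ), Polynomial.X] p).coeff N =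
      MvPolynomial.aeval (![0, 1] : Fin 2 → ℂ) p := by
  have hdeg : ∀ b ∈ p.support, b 0 + b 1 = N := by
    intro b hb
    have h1 := hp (MvPolynomial.mem_support_iff.1 hb)
    rw [Finsupp.weight_apply, Finsupp.sum_fintype _ _ (by simp)] at h1
    simpa [Fin.sum_univ_two] using h1
  have key : ∀ b : Fin 2 →₀ ℕ, b = H644.ex (b 0) (b 1) := H644.eq_ex
  have e1 : MvPolynomial.aeval ![(1 : Polynomial ℂ), Polynomial.X] p =
      ∑ b ∈ p.support, Polynomial.C (p.coeff b) * Polynomial.X ^ b 1 := by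
    conv_lhs => rw [p.as_sum, map_sum]
    refine Finset.sum_congr rfl fun b _ => ?_
    conv_lhs => rw [key b]
    rw [aeval_ex, ← key b]
  have e2 : MvPolynomial.aeval (![0, 1] : Fin 2 → ℂ) p =
      ∑ b ∈ p.support, p.coeff b * (0 : ℂ) ^ b 0 := by
    conv_lhs => rw [p.as_sum, map_sum]
    refine Finset.sum_congr rfl fun b _ => ?_
    conv_lhs => rw [key b]
    rw [aeval_ex2, ← key b]
    simp
  constructor
  · intro k hk
    rw [e1, Polynomial.finset_sum_coeff]
    refine Finset.sum_eq_zero fun b hb => ?_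
    rw [Polynomial.coeff_C_mul_X_pow, if_neg]
    have := hdeg b hb
    omega
  · rw [e1, e2, Polynomial.finset_sum_coeff]
    refine Finset.sum_congr rfl fun b hb => ?_
    rw [Polynomial.coeff_C_mul_X_pow]
    have h1 := hdeg b hb
    by_cases h0 : b 0 = 0
    · rw [if_pos (by omega), h0, pow_zero, mul_one]
    · rw [if_neg (by omega), zero_pow h0, mul_zero]

variable {r : ℕ} {R : Type} [CommRing R] [IsDomain R] [Algebra ℂ R]
  {𝒜 : ℕ × (Fin r → ℤ) → Submodule ℂ R} [GradedAlgebra 𝒜]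

/-- The value on a homogeneous element. -/
theorem form {y y' : FP 𝒜} {a : Fin r → ℤ} {n : ℕ} {φ : R →ₐ[ℂ] Polynomial ℂ}
    (hφ : Curve y y' a n φ) {d : ℕ} {m : Fin r → ℤ} {h : R} (hh : h ∈ 𝒜 (d, m)) :
    ∃ i : ℕ, i ≤ d * n ∧ (φ h ≠ 0 → m = d • y.ν + i • a) ∧
      ∃ c : ℂ, φ h = Polynomial.C c * Polynomial.X ^ i := by
  by_cases h0 : φ h = 0
  · exact ⟨0, Nat.zero_le _, fun h => absurd h0 h, 0, by rw [h0, Polynomial.C_0, zero_mul]⟩
  · obtain ⟨i, hi, hm, hc⟩ := hφ.hom d m h hh h0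
    exact ⟨i, hi, fun _ => hm, hc⟩

/-- The curve as a morphism from the projective line. -/
theorem exists_hat {y y' : FP 𝒜} {a : Fin r → ℤ} {n : ℕ} {φ : R →ₐ[ℂ] Polynomial ℂ}
    (hφ : Curve y y' a n φ) :
    ∃ ψ : R →ₐ[ℂ] MvPolynomial (Fin 2) ℂ, ∀ d m, ∀ h ∈ 𝒜 (d, m), ψ h = hg (d * n) (φ h) := by
  obtain ⟨ψ, hψ⟩ := exists_algHom 𝒜 (fun i => (hg (i.1 * n)).comp φ.toLinearMap) (by
      change hg (0 * n) (φ 1) = 1
      rw [map_one, Nat.zero_mul]
      have h1 := hg_mono (N := 0) (i := 0) le_rfl 1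
      rw [pow_zero, mul_one, Polynomial.C_1] at h1
      rw [h1]
      have h2 : H644.ex (0 - 0) 0 = 0 := by
        ext i
        fin_cases i <;> simp
      rw [h2]
      rfl) (by
      rintro ⟨d, m⟩ ⟨d', m'⟩ x hx g hg'
      change hg ((d + d') * n) (φ (x * g)) = hg (d * n) (φ x) * hg (d' * n) (φ g)
      obtain ⟨i, hi, -, c, hc⟩ := form hφ hx
      obtain ⟨i', hi', -, c', hc'⟩ := form hφ hg'
      have h1 : φ (x * g) = Polynomial.C (c * c') * Polynomial.X ^ (i + i') := by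
        rw [map_mul, hc, hc', Polynomial.C_mul, pow_add]
        ring
      have h2 : i + i' ≤ (d + d') * n := by
        rw [add_mul]
        omega
      rw [h1, hc, hc', hg_mono h2, hg_mono hi, hg_mono hi', MvPolynomial.monomial_mul, H644.ex_add]
      have h3 : (d + d') * n - (i + i') = d * n - i + (d' * n - i') := by
        rw [add_mul]
        omega
      rw [h3])
  exact ⟨ψ, fun d m h hh => hψ (d, m) h hh⟩

/-- Nefness along the curve. -/
theorem exists_der (H : Hyp 𝒜) {y y' : FP 𝒜} {a : Fin r → ℤ} {n : ℕ}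
    {φ : R →ₐ[ℂ] Polynomial ℂ} (hφ : Curve y y' a n φ) {t : R →ₗ[ℂ] ℂ}
    (ht : IsTangent y'.q t) :
    ∃ δ : R →ₗ[ℂ] Polynomial ℂ, (∀ x z, δ (x * z) = φ x * δ z + φ z * δ x) ∧
      (∀ d m, ∀ h ∈ 𝒜 (d, m), ∀ i, d * n < i → (δ h).coeff i = 0) ∧
      ∀ d m, ∀ h ∈ 𝒜 (d, m), (δ h).coeff (d * n) = t h := by
  obtain ⟨ψ, hψ⟩ := exists_hat hφ
  have hhom : ∀ (d : ℕ) (m : Fin r → ℤ), ∀ h ∈ 𝒜 (d, m), (ψ h).IsHomogeneous (d * n) := by
    intro d m h hh
    obtain ⟨i, hi, -, c, hc⟩ := form hφ hh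
    rw [hψ d m h hh, hc, hg_mono hi]
    apply MvPolynomial.isHomogeneous_monomial
    rw [Finsupp.degree_eq_sum]
    simp only [Fin.sum_univ_two, H644.ex_zero, H644.ex_one]
    omega
  have hev : ∀ (s : Fin 2 → ℂ) (d : ℕ) (m : Fin r → ℤ), ∀ h ∈ 𝒜 (d, m), ∀ (i : ℕ) (c : ℂ),
      i ≤ d * n → φ h = Polynomial.C c * Polynomial.X ^ i →
      MvPolynomial.aeval s (ψ h) = c * (s 0 ^ (d * n - i) * s 1 ^ i) := by
    intro s d m h hh i c hi hc
    rw [hψ d m h hh, hc, hg_mono hi, aeval_ex2]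
  have hbp : ∀ s : Fin 2 → ℂ, s ≠ 0 → ¬ IsVertex 𝒜 ((MvPolynomial.aeval s).comp ψ) := by
    intro s hs hver
    by_cases hs0 : s 0 = 0
    · have hs1 : s 1 ≠ 0 := by
        intro hs1
        apply hs
        funext i
        fin_cases i
        · exact hs0
        · exact hs1
      apply y'.nv
      intro d m hd h hh
      have h1 := hver d m hd h hh
      change MvPolynomial.aeval s (ψ h) = 0 at h1
      obtain ⟨i, hi, -, c, hc⟩ := form hφ hh
      rw [hev s d m h hh i c hi hc] at h1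
      rw [← hφ.ev' d m h hh, hc, Polynomial.coeff_C_mul_X_pow]
      by_cases hdi : d * n = i
      · rw [if_pos hdi]
        rw [hdi, Nat.sub_self, pow_zero, one_mul] at h1
        exact (mul_eq_zero.1 h1).resolve_right (pow_ne_zero _ hs1)
      · rw [if_neg hdi]
    · apply y.nv
      intro d m hd h hh
      have h1 := hver d m hd h hh
      change MvPolynomial.aeval s (ψ h) = 0 at h1
      obtain ⟨i, hi, -, c, hc⟩ := form hφ hh
      rw [hev s d m h hh i c hi hc] at h1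
      rw [← hφ.ev, hc]
      rcases Nat.eq_zero_or_pos i with h0 | h0
      · subst h0
        rw [pow_zero, mul_one, Nat.sub_zero] at h1
        have h2 := (mul_eq_zero.1 h1).resolve_right (pow_ne_zero _ hs0)
        rw [h2, Polynomial.C_0, zero_mul, Polynomial.eval_zero]
      · simp [Nat.pos_iff_ne_zero.1 h0]
  have hψ' : (MvPolynomial.aeval (![0, 1] : Fin 2 → ℂ)).comp ψ = y'.q := by
    apply algHom_ext_graded 𝒜
    rintro ⟨d, m⟩ h hh
    change MvPolynomial.aeval ![0, 1] (ψ h) = y'.q h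
    obtain ⟨i, hi, -, c, hc⟩ := form hφ hh
    rw [hev _ d m h hh i c hi hc, ← hφ.ev' d m h hh, hc, Polynomial.coeff_C_mul_X_pow]
    by_cases hdi : d * n = i
    · rw [if_pos hdi, hdi]
      simp
    · rw [if_neg hdi]
      have : d * n - i ≠ 0 := by omega
      simp [this]
  have hψφ : (MvPolynomial.aeval ![(1 : Polynomial ℂ), Polynomial.X]).comp ψ = φ := by
    apply algHom_ext_graded 𝒜
    rintro ⟨d, m⟩ h hh
    change MvPolynomial.aeval ![(1 : Polynomial ℂ), Polynomial.X] (ψ h) = φ h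
    obtain ⟨i, hi, -, c, hc⟩ := form hφ hh
    rw [hψ d m h hh, hc, hg_mono hi, aeval_ex]
  obtain ⟨δ, hδ, hδh, hδv⟩ := H.hN n ψ hhom hbp ![0, 1] (by
    intro h
    have := congrFun h 1
    simp at this) t (by rw [hψ']; exact ht)
  have hψx : ∀ x, MvPolynomial.aeval ![(1 : Polynomial ℂ), Polynomial.X] (ψ x) = φ x := by
    intro x
    rw [← hψφ]
    rfl
  refine ⟨(MvPolynomial.aeval ![(1 : Polynomial ℂ), Polynomial.X]).toLinearMap.comp δ, ?_, ?_, ?_⟩
  · intro x z
    simp only [LinearMap.comp_apply, AlgHom.toLinearMap_apply]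
    rw [hδ, map_add, map_mul, map_mul, hψx, hψx]
  · intro d m h hh i hi
    exact (aeval_deg (hδh d m h hh)).1 i hi
  · intro d m h hh
    rw [← hδv h]
    exact (aeval_deg (hδh d m h hh)).2

end Vale.Agent.P280.H490
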