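import Vale.Agent.P280.H490.Along
import Vale.Agent.P280.N.B01

/-! P280, stage 2: one good curve per weight is enough. -/

open DirectSum Vale.Agent.P280.T Vale.Agent.P280.H127

namespace Vale.Agent.P280.H490

open Vale.Agent.P280.N

variable {r : ℕ} {R : Type} [CommRing R] [IsDomain R] [Algebra ℂ R]
  {𝒜 : ℕ × (Fin r → ℤ) → Submodule ℂ R} [GradedAlgebra 𝒜]

omit [IsDomain R] [GradedAlgebra 𝒜] in
/-- Left eigenfunctionals. -/
theorem eig {D : Derivation ℂ R R} {i : ℕ × (Fin r → ℤ)} (hD : ∀ h ∈ 𝒜 i, D h ∈ 𝒜 i) {c κ : ℂ}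
    (hnil : ∀ h ∈ 𝒜 i, ∃ n : ℕ, (fun x : R => D x - c • x)^[n] h = 0) {t : R →ₗ[ℂ] ℂ}
    (ht : ∀ h ∈ 𝒜 i, t (D h) = κ * t h) {h : R} (hh : h ∈ 𝒜 i) (hne : t h ≠ 0) : c = κ := by
  obtain ⟨n, hn⟩ := hnil h hh
  have key : ∀ k : ℕ, ∀ x ∈ 𝒜 i, t ((fun x : R => D x - c • x)^[k] x) = (κ - c) ^ k * t x := by
    intro k
    induction k with
    | zero =>
      intro x _
      rw [Function.iterate_zero_apply, pow_zero, one_mul]
    | succ k ih =>
      intro x hx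
      rw [Function.iterate_succ_apply, ih _ (Submodule.sub_mem _ (hD x hx)
        (Submodule.smul_mem _ c hx)), map_sub, map_smul, smul_eq_mul, ht x hx]
      ring
  have h1 := key n h hh
  rw [hn, map_zero] at h1
  have h2 : (κ - c) ^ n = 0 := (mul_eq_zero.1 h1.symm).resolve_right hne
  have h3 : κ - c = 0 := by
    by_contra h3
    exact pow_ne_zero n h3 h2
  exact (sub_eq_zero.1 h3).symm

/-- The commutator along the curve. -/
theorem comm_along {y y' : FP 𝒜} {a : Fin r → ℤ} {n : ℕ} {φ : R →ₐ[ℂ] Polynomial ℂ}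
    {D D' : Derivation ℂ R R} (hDa : H93.IsHField 𝒜 a D) {A B : ℂ}
    (hA : ∀ x, φ (D x) = Polynomial.C A * Polynomial.derivative (φ x))
    (hB : ∀ d m, ∀ h ∈ 𝒜 (d, m), φ (D' h) = Polynomial.C B *
      (Polynomial.X ^ 2 * Polynomial.derivative (φ h) -
        Polynomial.C ((n : ℂ) * d) * Polynomial.X * φ h)) :
    ∀ d m, ∀ h ∈ 𝒜 (d, m), φ (⁅D, D'⁆ h) = Polynomial.C (A * B) *
      (2 * Polynomial.X * Polynomial.derivative (φ h) - Polynomial.C ((n : ℂ) * d) * φ h) := by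
  intro d m h hh
  rw [Derivation.commutator_apply, map_sub, hA, hB d m h hh, hB d _ _ (hDa d m h hh), hA]
  have h2 : Polynomial.C (2 : ℂ) = (2 : Polynomial ℂ) := rfl
  simp only [Polynomial.derivative_mul, Polynomial.derivative_sub, Polynomial.derivative_C,
    Polynomial.derivative_X_pow, Polynomial.derivative_X, Polynomial.C_mul]
  push_cast
  simp only [h2]
  ring

/-- The eigenvalue on the direction of the curve. -/
theorem beta_of (H : Hyp 𝒜) {y y' : FP 𝒜} {a : Fin r → ℤ} {n : ℕ} {φ : R →ₐ[ℂ] Polynomial ℂ}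
    (hφ : Curve y y' a n φ) {D : Derivation ℂ R R} (hD : ∀ d m, ∀ h ∈ 𝒜 (d, m), D h ∈ 𝒜 (d, m))
    {α : ℂ} {β : (Fin r → ℤ) →+ ℂ} (hnil : ∀ d m, ∀ h ∈ 𝒜 (d, m), ∃ n : ℕ,
      (fun x : R => D x - ((d : ℂ) * α + β m) • x)^[n] h = 0) {κ : ℂ}
    (hκ : ∀ d m, ∀ h ∈ 𝒜 (d, m), φ (D h) = Polynomial.C κ *
      (2 * Polynomial.X * Polynomial.derivative (φ h) - Polynomial.C ((n : ℂ) * d) * φ h)) :
    β a = 2 * κ := by
  have hcoeff : ∀ d m, ∀ h ∈ 𝒜 (d, m), ∀ k : ℕ,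
      (φ (D h)).coeff k = κ * (2 * k - n * d) * (φ h).coeff k := by
    intro d m h hh k
    rw [hκ d m h hh, Polynomial.coeff_C_mul, Polynomial.coeff_sub, Polynomial.coeff_C_mul,
      mul_assoc (2 : Polynomial ℂ)]
    have h2 : (2 : Polynomial ℂ) = Polynomial.C 2 := rfl
    rw [h2, Polynomial.coeff_C_mul]
    rcases k with _ | k
    · rw [Polynomial.coeff_X_mul_zero]
      push_cast
      ring
    · rw [Polynomial.coeff_X_mul, Polynomial.coeff_derivative]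
      push_cast
      ring
  obtain ⟨f, hf, hf0⟩ := exists_deg_one_ne H.hX.gen y.nv y.fix
  have e1 : ((1 : ℕ) : ℂ) * α + β y.ν = κ * (2 * (0 : ℕ) - n * (1 : ℕ)) := by
    refine eig (𝒜 := 𝒜) (D := D) (i := (1, y.ν)) (hD 1 y.ν) (hnil 1 y.ν)
      (t := (Polynomial.lcoeff ℂ 0).comp φ.toLinearMap) ?_ hf ?_
    · intro h hh
      exact hcoeff 1 _ h hh 0
    · change (φ f).coeff 0 ≠ 0
      rw [Polynomial.coeff_zero_eq_eval_zero, hφ.ev]
      exact hf0
  obtain ⟨d, g, hg, hg0⟩ := hφ.un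
  have e2 : (d : ℂ) * α + β (d • y.ν + a) = κ * (2 * (1 : ℕ) - n * d) := by
    refine eig (𝒜 := 𝒜) (D := D) (i := (d, d • y.ν + a)) (hD d _) (hnil d _)
      (t := (Polynomial.lcoeff ℂ 1).comp φ.toLinearMap) ?_ hg hg0
    intro h hh
    exact hcoeff d _ h hh 1
  rw [map_add, map_nsmul, nsmul_eq_mul] at e2
  push_cast at e1 e2
  linear_combination e2 - (d : ℂ) * e1

/-- **One good curve is enough.** -/
theorem one_curve (H : Hyp 𝒜) {y y' : FP 𝒜} {a : Fin r → ℤ} {n : ℕ}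
    {φ : R →ₐ[ℂ] Polynomial ℂ} (hφ : Curve y y' a n φ) {D D' : VF R} (hD : Glob D)
    (hDv : HV 𝒜 a D) (hD' : Glob D') (hDv' : HV 𝒜 (-a) D') (h0 : ¬ ValV y.q D 0)
    (h0' : ¬ ValV y'.q D' 0) :
    (∀ z : FP 𝒜, z.Pi a → ¬ ValV z.q D 0) ∧ ∀ z : FP 𝒜, z.Pi (-a) → ¬ ValV z.q D' 0 := by
  obtain ⟨E, rfl, hE⟩ := hD.exists_hder hDv
  obtain ⟨F, rfl, hF⟩ := hD'.exists_hder hDv'
  have hw : ∀ d m, ∀ h ∈ 𝒜 (d, m), (⁅E, F⁆ : Derivation ℂ R R) h ∈ 𝒜 (d, m) := by
    intro d m h hh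
    have := (hE.lie hF) d m h hh
    rwa [add_neg_cancel, sub_zero] at this
  obtain ⟨α, β, hnil⟩ := H.tor _ hw
  have hzero : ∀ (z : FP 𝒜) (W : Derivation ℂ R R), (∀ x, z.q (W x) = 0) →
      ValV z.q (toVF W) 0 := by
    intro z W hz h
    rw [toVF_iK]
    have := Val.iK (q := z.q) (W h)
    rwa [hz] at this
  have hzero' : ∀ (z : FP 𝒜) (W : Derivation ℂ R R), ValV z.q (toVF W) 0 →
      ∀ x, z.q (W x) = 0 := by
    intro z W hz x
    have h1 := hz x
    rw [toVF_iK] at h1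
    exact (Val.iK (q := z.q) (W x)).unique h1
  -- the good curve
  have hβ : β a ≠ 0 := by
    obtain ⟨A, hA⟩ := along_E H hφ hE
    obtain ⟨B, hB⟩ := along_F H hφ hF
    have h1 := beta_of H hφ hw hnil (comm_along (y := y) (y' := y') hE hA hB)
    rw [h1]
    refine mul_ne_zero two_ne_zero (mul_ne_zero ?_ ?_)
    · rintro rfl
      apply h0
      refine hzero y E fun x => ?_
      rw [← hφ.ev, hA, Polynomial.C_0, zero_mul, Polynomial.eval_zero]
    · rintro rfl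
      apply h0'
      refine hzero y' F fun x => ?_
      have h2 : y'.q.toLinearMap.comp (F : R →ₗ[ℂ] R) = 0 := by
        apply linearMap_ext_graded 𝒜
        rintro ⟨d, m⟩ h hh
        change y'.q (F h) = 0
        rw [← hφ.ev' d _ _ (hF d m h hh), hB d m h hh, Polynomial.C_0, zero_mul,
          Polynomial.coeff_zero]
      exact LinearMap.congr_fun h2 x
  -- the value at the start of a curve
  have hval : ∀ {z z' : FP 𝒜} {b : Fin r → ℤ} {k : ℕ} {ψ : R →ₐ[ℂ] Polynomial ℂ}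
      (_ : Curve z z' b k ψ) (W : Derivation ℂ R R) (A : ℂ),
      (∀ x, ψ (W x) = Polynomial.C A * Polynomial.derivative (ψ x)) → A ≠ 0 →
      ¬ ValV z.q (toVF W) 0 := by
    intro z z' b k ψ hψ W A hA hA0 hcon
    obtain ⟨d, g, -, hg0⟩ := hψ.un
    have h1 := hzero' z W hcon g
    rw [← hψ.ev, hA, Polynomial.eval_mul, Polynomial.eval_C,
      ← Polynomial.coeff_zero_eq_eval_zero, Polynomial.coeff_derivative] at h1
    rcases mul_eq_zero.1 h1 with h2 | h2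
    · exact hA0 h2
    · apply hg0
      simpa using h2
  constructor
  · intro z hz
    obtain ⟨z', k, ψ, hψ⟩ := exists_curve H z hz
    obtain ⟨A, hA⟩ := along_E H hψ hE
    obtain ⟨B, hB⟩ := along_F H hψ hF
    have h1 := beta_of H hψ hw hnil (comm_along (y := z) (y' := z') hE hA hB)
    refine hval hψ E A hA ?_
    rintro rfl
    apply hβ
    rw [h1, zero_mul, mul_zero]
  · intro z hz
    obtain ⟨z', k, ψ, hψ⟩ := exists_curve H z hz
    have hE' : H93.IsHField 𝒜 (- -a) E := by rwa [neg_neg]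
    obtain ⟨A, hA⟩ := along_E H hψ hF
    obtain ⟨B, hB⟩ := along_F H hψ hE'
    have h2 := comm_along (y := z) (y' := z') hF hA hB
    have h1 := beta_of H hψ hw hnil (κ := -(A * B)) (by
      intro d m h hh
      have h3 := h2 d m h hh
      rw [Derivation.commutator_apply] at h3 ⊢
      rw [map_sub] at h3 ⊢
      rw [Polynomial.C_neg, neg_mul, ← h3]
      ring)
    refine hval hψ F A hA ?_
    rintro rfl
    apply hβ
    rw [map_neg, zero_mul, neg_zero, mul_zero] at h1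
    exact neg_eq_zero.1 h1

end Vale.Agent.P280.H490
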