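import Vale.Agent.P280.H490.Rev

/-! P280, stage 2: transport along the curve, two possible orders. -/

open DirectSum Vale.Agent.P280.T Vale.Agent.P280.H127

namespace Vale.Agent.P280.H490

open Vale.Agent.P280.N

variable {r : ℕ} {R : Type} [CommRing R] [IsDomain R] [Algebra ℂ R]
  {𝒜 : ℕ × (Fin r → ℤ) → Submodule ℂ R} [GradedAlgebra 𝒜]

/-- `δ` is a derivation along `φ`, homogeneous of weight `μ`. -/
def Dr (𝒜 : ℕ × (Fin r → ℤ) → Submodule ℂ R) (y : FP 𝒜) (a μ : Fin r → ℤ)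
    (φ : R →ₐ[ℂ] Polynomial ℂ) (δ : R →ₗ[ℂ] Polynomial ℂ) : Prop :=
  (∀ x z, δ (x * z) = φ x * δ z + φ z * δ x) ∧
    ∀ d m, ∀ h ∈ 𝒜 (d, m), δ h ≠ 0 → ∃ i : ℕ, m = d • y.ν + i • a + μ ∧
      ∃ c : ℂ, δ h = Polynomial.C c * Polynomial.X ^ i

omit [IsDomain R] [GradedAlgebra 𝒜] in
theorem Dr.comb {y : FP 𝒜} {a μ : Fin r → ℤ} {φ : R →ₐ[ℂ] Polynomial ℂ} (ha : a ≠ 0)
    {δ δ' : R →ₗ[ℂ] Polynomial ℂ} (h1 : Dr 𝒜 y a μ φ δ) (h2 : Dr 𝒜 y a μ φ δ') (b : ℂ) :
    Dr 𝒜 y a μ φ (δ - b • δ') := by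
  have hε : ∀ x, (δ - b • δ') x = δ x - Polynomial.C b * δ' x := fun x => by
    rw [← Polynomial.smul_eq_C_mul]
    rfl
  constructor
  · intro x z
    rw [hε, hε, hε, h1.1, h2.1]
    ring
  · intro d m h hh hne
    by_cases h3 : δ h = 0
    · by_cases h4 : δ' h = 0
      · exfalso
        apply hne
        rw [hε, h3, h4, mul_zero, sub_zero]
      · obtain ⟨i, hi, e, he⟩ := h2.2 d m h hh h4
        refine ⟨i, hi, -(b * e), ?_⟩
        rw [hε, h3, he, Polynomial.C_neg, Polynomial.C_mul]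
        ring
    · obtain ⟨i, hi, e, he⟩ := h1.2 d m h hh h3
      by_cases h4 : δ' h = 0
      · refine ⟨i, hi, e, ?_⟩
        rw [hε, h4, mul_zero, sub_zero, he]
      · obtain ⟨i', hi', e', he'⟩ := h2.2 d m h hh h4
        have hii : i = i' := by
          rw [hi] at hi'
          exact nsmul_inj ha (add_left_cancel (add_right_cancel hi'))
        refine ⟨i, hi, e - b * e', ?_⟩
        rw [hε, he, he', hii, Polynomial.C_sub, Polynomial.C_mul]
        ring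

omit [IsDomain R] [GradedAlgebra 𝒜] in
theorem Dr.mulX {y : FP 𝒜} {a μ : Fin r → ℤ} {φ : R →ₐ[ℂ] Polynomial ℂ}
    {δ : R →ₗ[ℂ] Polynomial ℂ} (h1 : Dr 𝒜 y a (μ + a) φ δ) :
    Dr 𝒜 y a μ φ ((LinearMap.mulLeft ℂ (Polynomial.X : Polynomial ℂ)).comp δ) := by
  have hε : ∀ x, ((LinearMap.mulLeft ℂ (Polynomial.X : Polynomial ℂ)).comp δ) x =
      Polynomial.X * δ x := fun x => rfl
  constructor
  · intro x z
    rw [hε, hε, hε, h1.1]
    ring
  · intro d m h hh hne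
    have h3 : δ h ≠ 0 := fun h3 => hne (by rw [hε, h3, mul_zero])
    obtain ⟨i, hi, e, he⟩ := h1.2 d m h hh h3
    refine ⟨i + 1, ?_, e, ?_⟩
    · rw [hi, add_smul, one_smul]
      abel
    · rw [hε, he]
      ring

/-- Two tangent vectors of the same weight. -/
theorem exists_coef (H : Hyp 𝒜) {y : FP 𝒜} {μ : Fin r → ℤ} (hμ : μ ≠ 0) {t t' : R →ₗ[ℂ] ℂ}
    (ht : IsTangent y.q t) (hw : HasWeight 𝒜 y.ν μ t) (ht' : IsTangent y.q t')
    (hw' : HasWeight 𝒜 y.ν μ t') (hne : t' ≠ 0) : ∃ b : ℂ, ∀ x, t x = b * t' x := by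
  have hpi : y.Pi μ := tangentWeight_of_ne y.fix hμ ht' hw' hne
  obtain ⟨c, c', hcc, hlin⟩ := H.mult y.q y.ν μ y.nv y.fix hpi _ _ ht hw ht' hw'
  have hc : c ≠ 0 := by
    intro hc
    subst hc
    rcases hcc with h | h
    · exact h rfl
    · apply hne
      refine LinearMap.ext fun x => ?_
      have h3 := hlin x
      rw [zero_mul, zero_add] at h3
      exact (mul_eq_zero.1 h3).resolve_left h
  refine ⟨-(c' / c), fun x => ?_⟩
  have h3 := hlin x
  field_simp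
  linear_combination h3

/-- A global field along the curve. -/
theorem dr_of_field {y y' : FP 𝒜} {a : Fin r → ℤ} {n : ℕ} {φ : R →ₐ[ℂ] Polynomial ℂ}
    (hφ : Curve y y' a n φ) {μ : Fin r → ℤ} {E : Derivation ℂ R R} (hE : H93.IsHField 𝒜 μ E) :
    Dr 𝒜 y a μ φ (φ.toLinearMap.comp (E : R →ₗ[ℂ] R)) := by
  constructor
  · intro x z
    simp only [LinearMap.comp_apply, AlgHom.toLinearMap_apply, Derivation.coeFn_coe,
      Derivation.leibniz, smul_eq_mul, map_add, map_mul]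
  · intro d m h hh hne
    simp only [LinearMap.comp_apply, AlgHom.toLinearMap_apply, Derivation.coeFn_coe] at hne ⊢
    obtain ⟨i, -, hm, hc⟩ := hφ.hom d (m - μ) (E h) (hE d m h hh) hne
    exact ⟨i, by rw [← hm]; abel, hc⟩

/-- A global field which is not zero at `y` is not zero at `y'` if `lam` is a weight at `y'`, the
possible orders at `y` are `0` and `1`, and a global field of weight `lam + a` is not zero at both
ends. -/
theorem curve_u2_end (H : Hyp 𝒜) {y y' : FP 𝒜} {a : Fin r → ℤ} {n : ℕ}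
    {φ : R →ₐ[ℂ] Polynomial ℂ} (hφ : Curve y y' a n φ) {lam : Fin r → ℤ} {D w : VF R}
    (hD : Glob D) (hDv : HV 𝒜 lam D) (hl : ∀ k : ℤ, lam ≠ k • a) (hpi : y'.Pi lam)
    (hk : ∀ k : ℕ, y.Pi (lam + k • a) → k = 0 ∨ k = 1) (hw : Glob w) (hwv : HV 𝒜 (lam + a) w)
    (hw0 : ¬ ValV y.q w 0) (hw1 : ¬ ValV y'.q w 0) (hD1 : ¬ ValV y.q D 0) :
    ¬ ValV y'.q D 0 := by
  have ha := ne_zero_of_curve H hφ
  obtain ⟨E, rfl, hE⟩ := hD.exists_hder hDv
  obtain ⟨W, rfl, hW⟩ := hw.exists_hder hwv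
  have hval : ∀ (z : FP 𝒜) (V : Derivation ℂ R R), ValV z.q (toVF V) 0 ↔ ∀ x, z.q (V x) = 0 := by
    intro z V
    constructor
    · intro hz x
      have h1 := hz x
      rw [toVF_iK] at h1
      exact (Val.iK (q := z.q) (V x)).unique h1
    · intro hz x
      rw [toVF_iK]
      have := Val.iK (q := z.q) (V x)
      rwa [hz] at this
  obtain ⟨t, ht, htw, htne⟩ := hpi
  obtain ⟨δ, hδ, hdeg, htop⟩ := exists_lift H hφ ht htw
  have hdr : Dr 𝒜 y a lam φ δ := ⟨hδ, fun d m h hh hne => by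
    obtain ⟨i, -, hi, hc⟩ := hdeg d m h hh hne
    exact ⟨i, hi, hc⟩⟩
  set δD : R →ₗ[ℂ] Polynomial ℂ := φ.toLinearMap.comp (E : R →ₗ[ℂ] R) with hδD
  set δW : R →ₗ[ℂ] Polynomial ℂ := φ.toLinearMap.comp (W : R →ₗ[ℂ] R) with hδW
  have hδDa : ∀ x, δD x = φ (E x) := fun x => rfl
  have hδWa : ∀ x, δW x = φ (W x) := fun x => rfl
  have hdrD : Dr 𝒜 y a lam φ δD := dr_of_field hφ hE
  have hdrW : Dr 𝒜 y a (lam + a) φ δW := dr_of_field hφ hW
  have hlt : ∀ (ε : R →ₗ[ℂ] Polynomial ℂ), ∀ h, ∀ i < 0, (ε h).coeff i = 0 :=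
    fun _ _ _ hi => absurd hi (Nat.not_lt_zero _)
  have hlam : lam ≠ 0 := fun h => hl 0 (by rw [h, zero_smul])
  have hlam1 : lam + a ≠ 0 := by
    intro h
    apply hl (-1)
    rw [neg_smul, one_smul]
    exact eq_neg_of_add_eq_zero_left h
  -- order `0`
  obtain ⟨b, hb⟩ : ∃ b : ℂ, ∀ x, (δ x).coeff 0 = b * (δD x).coeff 0 := by
    have e1 := along_weight (y := y) (a := a) (μ := lam) hdr.2 0
    have e2 := along_weight (y := y) (a := a) (μ := lam) hdrD.2 0
    rw [Nat.cast_zero, zero_smul, add_zero] at e1 e2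
    exact exists_coef H hlam (along_tangent hφ.ev hδ (hlt δ)) e1
      (along_tangent hφ.ev hdrD.1 (hlt δD)) e2 (by
        intro h0
        apply hD1
        rw [hval]
        intro x
        have h1 : (φ (E x)).coeff 0 = 0 := LinearMap.congr_fun h0 x
        rw [← hφ.ev, ← Polynomial.coeff_zero_eq_eval_zero]
        exact h1)
  have hdr1 := hdr.comb ha hdrD b
  set ε1 : R →ₗ[ℂ] Polynomial ℂ := δ - b • δD with hε1
  have hε1a : ∀ x, ε1 x = δ x - Polynomial.C b * δD x := fun x => by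
    rw [← Polynomial.smul_eq_C_mul]
    rfl
  have h10 : ∀ x, ∀ i < 1, (ε1 x).coeff i = 0 := by
    intro x i hi
    obtain rfl : i = 0 := by omega
    rw [hε1a, Polynomial.coeff_sub, Polynomial.coeff_C_mul, hb, sub_self]
  -- order `1`
  obtain ⟨b', hb'⟩ : ∃ b' : ℂ, ∀ x, (ε1 x).coeff 1 = b' * (δW x).coeff 0 := by
    have e1 := along_weight (y := y) (a := a) (μ := lam) hdr1.2 1
    have e2 := along_weight (y := y) (a := a) (μ := lam + a) hdrW.2 0
    rw [Nat.cast_one, one_smul] at e1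
    rw [Nat.cast_zero, zero_smul, add_zero] at e2
    exact exists_coef H hlam1 (along_tangent hφ.ev hdr1.1 h10) e1
      (along_tangent hφ.ev hdrW.1 (hlt δW)) e2 (by
        intro h0
        apply hw0
        rw [hval]
        intro x
        have h1 : (φ (W x)).coeff 0 = 0 := LinearMap.congr_fun h0 x
        rw [← hφ.ev, ← Polynomial.coeff_zero_eq_eval_zero]
        exact h1)
  have hdr2 := hdr1.comb ha hdrW.mulX b'
  set ε2 : R →ₗ[ℂ] Polynomial ℂ :=
    ε1 - b' • ((LinearMap.mulLeft ℂ (Polynomial.X : Polynomial ℂ)).comp δW) with hε2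
  have hε2a : ∀ x, ε2 x = ε1 x - Polynomial.C b' * (Polynomial.X * δW x) := fun x => by
    rw [← Polynomial.smul_eq_C_mul]
    rfl
  have h20 : ∀ x, ∀ i < 2, (ε2 x).coeff i = 0 := by
    intro x i hi
    rw [hε2a, Polynomial.coeff_sub, Polynomial.coeff_C_mul]
    rcases i with _ | i
    · rw [Polynomial.coeff_X_mul_zero, mul_zero, sub_zero]
      exact h10 x 0 (by omega)
    · obtain rfl : i = 0 := by omega
      rw [Polynomial.coeff_X_mul, hb', sub_self]
  have hzero : ∀ x, ε2 x = 0 := by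
    by_contra hcon
    push Not at hcon
    obtain ⟨l, hl1, -, -, hpi'⟩ := along_pi (y := y) (a := a) (μ := lam) (φ := φ) (j := 2)
      (δ := ε2) hφ.ev hdr2.1 hdr2.2 hl hcon h20
    have := hk l (by rwa [natCast_zsmul] at hpi')
    omega
  have hsum : ∀ x, δ x = Polynomial.C b * φ (E x) + Polynomial.C b' * (Polynomial.X * φ (W x)) := by
    intro x
    have h1 := hzero x
    rw [hε2a, hε1a, hδDa, hδWa] at h1
    linear_combination h1
  -- the degree at the other end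
  have hdegφ : ∀ d m, ∀ h ∈ 𝒜 (d, m), (φ h).coeff (d * n + 1) = 0 := by
    intro d m h hh
    obtain ⟨i, hi, -, c, hc⟩ := form hφ hh
    rw [hc, Polynomial.coeff_C_mul_X_pow, if_neg (by omega)]
  have hb0 : b' = 0 := by
    by_contra hb0
    apply hw1
    rw [hval]
    have h2 : y'.q.toLinearMap.comp (W : R →ₗ[ℂ] R) = 0 := by
      apply linearMap_ext_graded 𝒜
      rintro ⟨d, m⟩ h hh
      change y'.q (W h) = 0
      rw [← hφ.ev' d _ _ (hW d m h hh)]
      have h3 := congrArg (fun p => Polynomial.coeff p (d * n + 1)) (hsum h)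
      simp only [Polynomial.coeff_add, Polynomial.coeff_C_mul] at h3
      rw [Polynomial.coeff_X_mul, hdegφ d _ _ (hE d m h hh), mul_zero, zero_add] at h3
      have h4 : (δ h).coeff (d * n + 1) = 0 := by
        by_cases hδh : δ h = 0
        · rw [hδh, Polynomial.coeff_zero]
        · obtain ⟨i, hi, -, e, he⟩ := hdeg d m h hh hδh
          rw [he, Polynomial.coeff_C_mul_X_pow, if_neg (by omega)]
      rw [h4] at h3
      exact (mul_eq_zero.1 h3.symm).resolve_left hb0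
    exact fun x => LinearMap.congr_fun h2 x
  intro hD0
  rw [hval] at hD0
  obtain ⟨d, m, h, hh, hne⟩ := htne 0
  apply hne
  rw [← htop d m h hh, hsum h, hb0, Polynomial.C_0, zero_mul, add_zero, Polynomial.coeff_C_mul,
    hφ.ev' d _ _ (hE d m h hh), hD0, mul_zero, zero_mul, zero_mul]

/-- The same, from `y'` to `y`. -/
theorem curve_u2 (H : Hyp 𝒜) {y y' : FP 𝒜} {a : Fin r → ℤ} {n : ℕ}
    {φ : R →ₐ[ℂ] Polynomial ℂ} (hφ : Curve y y' a n φ) {lam : Fin r → ℤ} {D w : VF R}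
    (hD : Glob D) (hDv : HV 𝒜 lam D) (hl : ∀ k : ℤ, lam ≠ k • a) (hpi : y.Pi lam)
    (hk : ∀ k : ℕ, y'.Pi (lam - k • a) → k = 0 ∨ k = 1) (hw : Glob w) (hwv : HV 𝒜 (lam - a) w)
    (hw0 : ¬ ValV y.q w 0) (hw1 : ¬ ValV y'.q w 0) (hD1 : ¬ ValV y'.q D 0) :
    ¬ ValV y.q D 0 := by
  obtain ⟨φ', hφ', -⟩ := exists_rev H hφ
  exact curve_u2_end H hφ' hD hDv (fun k hk => hl (-k) (by rw [hk, neg_smul, smul_neg])) hpi
    (fun k hk' => hk k (by rwa [smul_neg, ← sub_eq_add_neg] at hk')) hw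
    (by rwa [← sub_eq_add_neg]) hw1 hw0 hD1

end Vale.Agent.P280.H490
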